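import Vale.Agent.H6.AB.ADefs

namespace Vale.Agent.H6.AB

open MeasureTheory Set
open scoped ContDiff

/-! ## T-lemmas -/

/-- Row T0. -/
theorem T_continuous (p : ℕ) {f : ℝ → ℝ} (hf : Continuous f) : Continuous (T p f) := by
  sorry

/-- Row T0. `T p f` solves `2 s g' + (p+2) g = f` away from the origin. -/
theorem T_hasDerivAt (p : ℕ) {f : ℝ → ℝ} (hf : Continuous f) {s : ℝ} (hs : s ≠ 0) :
    HasDerivAt (T p f) ((f s - (p + 2) * T p f s) / (2 * s)) s := by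
  sorry

/-- Row T0. -/
theorem T_zero (p : ℕ) (f : ℝ → ℝ) : T p f 0 = f 0 / (p + 2) := by
  sorry

/-- Row T0 (gain of one derivative), local version on `(-δ, ∞)`. -/
theorem sT_hasDerivAt (p : ℕ) {h : ℝ → ℝ} (hh : Continuous h) (s : ℝ) :
    HasDerivAt (fun s => s * T (p + 2) h s) (h s / 2 - (p + 2) / 2 * T (p + 2) h s) s := by
  sorry

/-- Row T1 (regularity is preserved); `f` globally continuous, `C^k` on `(-δ, ∞)`. -/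
theorem T_contDiffOn (k : ℕ) (p : ℕ) {f : ℝ → ℝ} {δ : ℝ} (hδ : 0 < δ) (hc : Continuous f)
    (hf : ContDiffOn ℝ k f (Ioi (-δ))) : ContDiffOn ℝ k (T p f) (Ioi (-δ)) := by
  sorry

/-! ## existence -/

/-- Row A0: abstract fixed point theorem (Banach, weights `exp (λ |s|)`). -/
theorem fixed_point_abs (p : ℕ) (M N : ℝ → ℝ → ℝ → ℝ) (C : ℝ)
    (hM : Continuous fun q : ℝ × ℝ × ℝ => M q.1 q.2.1 q.2.2)
    (hN : Continuous fun q : ℝ × ℝ × ℝ => N q.1 q.2.1 q.2.2)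
    (hMb : ∀ s x z, |M s x z| ≤ C) (hNb : ∀ s x z, |N s x z| ≤ C)
    (hMl : ∀ s x z x' z', |M s x z - M s x' z'| ≤ C * (|x - x'| + |z - z'|))
    (hNl : ∀ s x z x' z', |N s x z - N s x' z'| ≤ C * (1 + |s|) * |x - x'| + C * |s| * |z - z'|) :
    ∃ ξ ζ : ℝ → ℝ, Continuous ξ ∧ Continuous ζ ∧
      (∀ s, ξ s = 1 + ∫ t in (0 : ℝ)..s, M t (ξ t) (ζ t)) ∧
      (∀ s, ζ s = T p (fun t => N t (ξ t) (ζ t)) s) := by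
  sorry

/-- Row A1: bounds for the clipped nonlinearities. -/
theorem clip_bounds (p : ℕ) (hp : 9 ≤ p) :
    (Continuous fun q : ℝ × ℝ × ℝ => Mc q.1 q.2.1 q.2.2) ∧
    (Continuous fun q : ℝ × ℝ × ℝ => Nc p q.1 q.2.1 q.2.2) ∧
    ∃ C : ℝ, (∀ s x z, |Mc s x z| ≤ C) ∧ (∀ s x z, |Nc p s x z| ≤ C) ∧
    (∀ s x z x' z', |Mc s x z - Mc s x' z'| ≤ C * (|x - x'| + |z - z'|)) ∧
    (∀ s x z x' z', |Nc p s x z - Nc p s x' z'| ≤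
      C * (1 + |s|) * |x - x'| + C * |s| * |z - z'|) := by
  sorry

/-- Row A2: the cone `0 ≤ ζ ≤ 5/9 ξ` is invariant. -/
theorem trapping (p : ℕ) (hp : 9 ≤ p) (ξ ζ : ℝ → ℝ) (hξ : Continuous ξ) (hζ : Continuous ζ)
    (h1 : ∀ s, ξ s = 1 + ∫ t in (0 : ℝ)..s, Mc t (ξ t) (ζ t))
    (h2 : ∀ s, ζ s = T p (fun t => Nc p t (ξ t) (ζ t)) s) :
    ∀ s, 0 ≤ s → 0 < ξ s ∧ ξ s ≤ 9 / (8 + 2 * s) ∧ 0 ≤ ζ s ∧ ζ s ≤ 5 / 9 * ξ s := by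
  sorry

/-- Row A3: smoothness (bootstrapping with T1 and the gain lemma). -/
theorem smooth_sol (p : ℕ) (hp : 9 ≤ p) (ξ ζ : ℝ → ℝ) (hξ : Continuous ξ) (hζ : Continuous ζ)
    {δ : ℝ} (hδ : 0 < δ)
    (h1 : ∀ s, -δ < s → ξ s = 1 + ∫ t in (0 : ℝ)..s, ξ t * (ζ t - ξ t) / 2)
    (h2 : ∀ s, -δ < s → ζ s = T p (fun t => Nf p t (ξ t) (ζ t)) s)
    (h3 : ∀ s, -δ < s → 0 < p + 2 * s * ξ s) :
    ContDiffOn ℝ ∞ ξ (Ioi (-δ)) ∧ ContDiffOn ℝ ∞ ζ (Ioi (-δ)) := by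
  sorry

/-- Row A4: the solution of the singular system. -/
theorem sol_exists (p : ℕ) (hp : 9 ≤ p) : ∃ (δ : ℝ) (ξ ζ : ℝ → ℝ), 0 < δ ∧
    ContDiffOn ℝ ∞ ξ (Ioi (-δ)) ∧ ContDiffOn ℝ ∞ ζ (Ioi (-δ)) ∧
    (∀ s, -δ < s → HasDerivAt ξ (ξ s * (ζ s - ξ s) / 2) s) ∧
    (∀ s, -δ < s → 2 * s * deriv ζ s + (p + 2) * ζ s = Nf p s (ξ s) (ζ s)) ∧
    (∀ s, -δ < s → 0 < ξ s ∧ 0 < 1 + s * ζ s ∧ 0 < p + 2 * s * ξ s) := by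
  sorry

end Vale.Agent.H6.AB
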