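import Vale.Agent.H6.AB.BDefs
import Vale.Agent.H6.AB.ADefs

namespace Vale.Agent.H6.AB

open MeasureTheory Set Matrix
open scoped ContDiff

section

variable {ι : Type*} [Fintype ι] [DecidableEq ι]

/-! ## Matrix algebra -/

/-- Row M1: product, as used for the inverse. -/
theorem FM_mul_eq_one (o : ι) (q : ι → ℝ) (hq : q o = 0) (s : ℝ) (hs : ∑ i, q i ^ 2 = s)
    (a α β γ a' α' β' γ' : ℝ) (h0 : a * a' = 1)
    (h1 : a * α' + α * a' + α * α' * s + β * β' = 0)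
    (h2 : a * β' + α * β' * s + β * γ' = 0)
    (h3 : β * a' + β * α' * s + γ * β' = 0)
    (h4 : β * β' * s + γ * γ' = 1) :
    FM o q a α β γ * FM o q a' α' β' γ' = 1 := by
  sorry

/-- Row M1: trace of the product. -/
theorem FM_sum_mul (o : ι) (q : ι → ℝ) (hq : q o = 0) (s : ℝ) (hs : ∑ i, q i ^ 2 = s)
    (a α β γ a' α' β' γ' : ℝ) :
    ∑ i, ∑ j, FM o q a α β γ i j * FM o q a' α' β' γ' i j =
      ((Fintype.card ι : ℝ) - 1) * (a * a') +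
        s * (a * α' + α * a' + α * α' * s + β * β') + (β * β' * s + γ * γ') := by
  sorry

/-- Row M2: determinant. -/
theorem FM_det (o : ι) (q : ι → ℝ) (hq : q o = 0) (s : ℝ) (hs : ∑ i, q i ^ 2 = s)
    (p : ℕ) (hp : 1 ≤ p) (hcard : Fintype.card ι = p + 1)
    (a α β γ : ℝ) (ha : a ≠ 0) :
    (FM o q a α β γ).det = a ^ (p - 1) * ((a + α * s) * γ - β ^ 2 * s) := by
  sorry

/-- Row M3: positive definiteness. -/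
theorem FM_posDef (o : ι) (q : ι → ℝ) (hq : q o = 0) (s : ℝ) (hs : ∑ i, q i ^ 2 = s)
    (a α β γ : ℝ) (ha : 0 < a) (hγ : 0 < γ) (hd : 0 < (a + α * s) * γ - β ^ 2 * s) :
    (FM o q a α β γ).PosDef := by
  sorry

/-! ## Calculus; `p + 1` is the dimension -/

/-- Row C1: first derivatives of `S`. -/
theorem Sf_hasFDerivAt (o : ι) (x : ι → ℝ) :
    ∃ L : (ι → ℝ) →L[ℝ] ℝ, HasFDerivAt (Sf o) L x ∧ ∀ i, L (Pi.single i 1) = 2 * qv o x i := by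
  sorry

/-- Row C1: smoothness of the ansatz. -/
theorem uf_contDiff (o : ι) (G : ℝ → ℝ) {δ : ℝ} (hδ : 0 < δ) (hG : ContDiffOn ℝ ∞ G (Ioi (-δ)))
    (hpos : ∀ s, -δ < s → 0 < G s) : ContDiff ℝ ∞ (uf o G) := by
  sorry

/-- Row C1: first partial derivatives of `u`. -/
theorem pd_uf (o : ι) (G G1 : ℝ → ℝ) {δ : ℝ} (hδ : 0 < δ) (hG : ∀ s, -δ < s → HasDerivAt G (G1 s) s)
    (hpos : ∀ s, -δ < s → 0 < G s) (j : ι) :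
    pd j (uf o G) = fun x => (G1 (Sf o x) * qv o x j + x o * ev o j) / uf o G x := by
  sorry

/-- Row C2: Hessian of `u`. -/
theorem hess_uf (o : ι) (G G1 G2 : ℝ → ℝ) {δ : ℝ} (hδ : 0 < δ)
    (hG : ∀ s, -δ < s → HasDerivAt G (G1 s) s) (hG1 : ∀ s, -δ < s → HasDerivAt G1 (G2 s) s)
    (hpos : ∀ s, -δ < s → 0 < G s) (x : ι → ℝ) :
    hess (uf o G) x = FM o (qv o x) (G1 (Sf o x) / uf o G x)
      ((2 * G2 (Sf o x) - G1 (Sf o x) ^ 2 / uf o G x ^ 2) / uf o G x)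
      (-(G1 (Sf o x) * x o) / uf o G x ^ 3)
      (G (Sf o x) / uf o G x ^ 3) := by
  sorry

/-- Row C3: Hessian of `u^(p+2) ψ(S)`. -/
theorem hess_w (o : ι) (p : ℕ) (G G1 G2 ψ ψ1 ψ2 : ℝ → ℝ) {δ : ℝ} (hδ : 0 < δ)
    (hG : ∀ s, -δ < s → HasDerivAt G (G1 s) s) (hG1 : ∀ s, -δ < s → HasDerivAt G1 (G2 s) s)
    (hψ : ∀ s, -δ < s → HasDerivAt ψ (ψ1 s) s) (hψ1 : ∀ s, -δ < s → HasDerivAt ψ1 (ψ2 s) s)
    (hpos : ∀ s, -δ < s → 0 < G s) (x : ι → ℝ) :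
    hess (fun x => uf o G x ^ (p + 2) * ψ (Sf o x)) x =
      let u := uf o G x
      let s := Sf o x
      FM o (qv o x)
        ((p + 2) * u ^ p * ψ s * G1 s + 2 * u ^ (p + 2) * ψ1 s)
        ((p + 1) * (p + 2) * u ^ p * ψ s * (G1 s ^ 2 / u ^ 2) +
          (p + 2) * u ^ p * ψ s * (2 * G2 s - G1 s ^ 2 / u ^ 2) +
          4 * (p + 2) * u ^ p * ψ1 s * G1 s + 4 * u ^ (p + 2) * ψ2 s)
        ((p + 1) * (p + 2) * u ^ p * ψ s * (G1 s * x o / u ^ 2) -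
          (p + 2) * u ^ p * ψ s * (G1 s * x o / u ^ 2) + 2 * (p + 2) * u ^ p * ψ1 s * x o)
        ((p + 1) * (p + 2) * u ^ p * ψ s * (x o ^ 2 / u ^ 2) +
          (p + 2) * u ^ p * ψ s * (G s / u ^ 2)) := by
  sorry

/-- Row D: the PDE from the ODE (`n = p + 1`). -/
theorem pde_of_ode (o : ι) (p : ℕ) (hp : 1 ≤ p) (hcard : Fintype.card ι = p + 1)
    (G G1 G2 ψ ψ1 ψ2 : ℝ → ℝ) {δ : ℝ} (hδ : 0 < δ)
    (hG : ∀ s, -δ < s → HasDerivAt G (G1 s) s) (hG1 : ∀ s, -δ < s → HasDerivAt G1 (G2 s) s)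
    (hψ : ∀ s, -δ < s → HasDerivAt ψ (ψ1 s) s) (hψ1 : ∀ s, -δ < s → HasDerivAt ψ1 (ψ2 s) s)
    (hpos : ∀ s, -δ < s → 0 < G s) (hpos1 : ∀ s, -δ < s → 0 < G1 s)
    (hB : ∀ s, -δ < s → 0 < Bt G G1 G2 s)
    (hdef : ∀ s, -δ < s →
      ψ s = (G1 s ^ (p - 1) * Bt G G1 G2 s) ^ (-(((p : ℝ) + 2) / ((p : ℝ) + 3))))
    (hode : ∀ s, -δ < s → 4 * s * G s * ψ2 s +
      (2 * G s + 4 * (p + 2) * s * G1 s + 2 * (p - 1) * Bt G G1 G2 s / G1 s) * ψ1 s +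
      (p + 1) * (p + 2) * (G1 s + 2 * s * G2 s) * ψ s = 0) :
    (∀ x, (hess (uf o G) x).PosDef) ∧ ∀ x, affineMaximalOp (uf o G) x = 0 := by
  sorry

/-- Row Q: not quadratic. -/
theorem uf_not_quadratic (o : ι) (G : ℝ → ℝ) (hG : G 0 = 1) : ¬ IsQuadratic (uf o G) := by
  sorry

end

/-- Row G: from `ξ, ζ` to `G, ψ` and the fourth order equation. -/
theorem exists_G (p : ℕ) (hp : 9 ≤ p) (δ : ℝ) (hδ : 0 < δ) (ξ ζ : ℝ → ℝ)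
    (hξs : ContDiffOn ℝ ∞ ξ (Ioi (-δ))) (hζs : ContDiffOn ℝ ∞ ζ (Ioi (-δ)))
    (hξ : ∀ s, -δ < s → HasDerivAt ξ (ξ s * (ζ s - ξ s) / 2) s)
    (hζ : ∀ s, -δ < s → 2 * s * deriv ζ s + (p + 2) * ζ s = Nf p s (ξ s) (ζ s))
    (hpos : ∀ s, -δ < s → 0 < ξ s ∧ 0 < 1 + s * ζ s ∧ 0 < p + 2 * s * ξ s) :
    ∃ G G1 G2 ψ ψ1 ψ2 : ℝ → ℝ, G 0 = 1 ∧ ContDiffOn ℝ ∞ G (Ioi (-δ)) ∧
      (∀ s, -δ < s → HasDerivAt G (G1 s) s) ∧ (∀ s, -δ < s → HasDerivAt G1 (G2 s) s) ∧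
      (∀ s, -δ < s → HasDerivAt ψ (ψ1 s) s) ∧ (∀ s, -δ < s → HasDerivAt ψ1 (ψ2 s) s) ∧
      (∀ s, -δ < s → 0 < G s) ∧ (∀ s, -δ < s → 0 < G1 s) ∧
      (∀ s, -δ < s → 0 < Bt G G1 G2 s) ∧
      (∀ s, -δ < s →
        ψ s = (G1 s ^ (p - 1) * Bt G G1 G2 s) ^ (-(((p : ℝ) + 2) / ((p : ℝ) + 3)))) ∧
      (∀ s, -δ < s → 4 * s * G s * ψ2 s +
        (2 * G s + 4 * (p + 2) * s * G1 s + 2 * (p - 1) * Bt G G1 G2 s / G1 s) * ψ1 s +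
        (p + 1) * (p + 2) * (G1 s + 2 * s * G2 s) * ψ s = 0) := by
  sorry

end Vale.Agent.H6.AB
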